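import Vale.Agent.P214.FV.Slab
import Vale.Agent.P214.FV.Planes

/-!
# P214, skeleton: the interface between the blocks

Statements only (definitions of propositions), no proofs.  Everything is over an abstract Euclidean
space `E`.
-/

open Set Filter Topology MeasureTheory Metric
open scoped RealInnerProductSpace ENNReal ContDiff

namespace Vale.Agent.P214.Skel

variable {E : Type*} [NormedAddCommGroup E] [InnerProductSpace ℝ E] [FiniteDimensional ℝ E]
  [MeasurableSpace E] [BorelSpace E]

/-- the volume of the unit ball of `ℝ^m` with respect to `μH[m]` -/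
noncomputable def om (m : ℕ) : ℝ := (μH[m] (ball (0 : EuclideanSpace ℝ (Fin m)) 1)).toReal

/-- the cylinder over the base ball `ball z R` -/
def cylSet (T : Submodule ℝ E) (z : E) (R : ℝ) : Set E := {y | T.starProjection y ∈ ball z R}

/-- A stationary integral varifold in the cylinder over `ball z R`, in a slab of height `h`, with
mass within `δ R^m` of `Q` times that of the plane. -/
structure IntCyl (m Q : ℕ) (T : Submodule ℝ E) (z : E) (R h δ : ℝ) (ν : Measure E)
    (P : E → E →L[ℝ] E) : Prop where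
  cyl : FV.CylStat m T (ball z R) h ν P
  mem : z ∈ T
  pos : 0 < R
  int : ∀ᵐ y ∂ν, y ∈ cylSet T z R → ∃ q : ℕ, 1 ≤ q ∧ ∃ S : Submodule ℝ E,
    P y = S.starProjection ∧ IsApproxTangent m ν y q S
  mass : |ν.real (cylSet T z R) - Q * om m * R ^ m| ≤ δ * R ^ m

/-- the tilt excess over the base ball `ball z R` (not normalised) -/
noncomputable def exc (T : Submodule ℝ E) (ν : Measure E) (P : E → E →L[ℝ] E) (z : E) (R : ℝ) :
    ℝ :=
  ∫ y in cylSet T z R, FV.tilt T (P y) ∂ν

/-- `F_T(φ) = ∫ φ(p y) (1 - e/2) dν - Q ∫_T φ`: area excess minus half the tilt excess -/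
noncomputable def Ffl (m Q : ℕ) (T : Submodule ℝ E) (ν : Measure E) (P : E → E →L[ℝ] E)
    (φ : E → ℝ) : ℝ :=
  ∫ y, φ (T.starProjection y) * (1 - FV.tilt T (P y) / 2) ∂ν - Q * ∫ x in (T : Set E), φ x ∂μH[m]

/-- nonnegative Lipschitz test functions of the base variable at scale `R` -/
structure BaseTest (_T : Submodule ℝ E) (z : E) (R : ℝ) (φ : E → ℝ) : Prop where
  nonneg : ∀ x, 0 ≤ φ x
  le_one : ∀ x, φ x ≤ 1
  supp : ∀ x, R ≤ ‖x - z‖ → φ x = 0
  lip : ∀ x y, |φ x - φ y| ≤ R⁻¹ * ‖x - y‖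

/-- **The flat rate lemma**, for `Q` sheets in dimension `m`: the area excess minus half the tilt
excess is smaller than the tilt excess by any power of its logarithm.  The height `h` of the slab
is arbitrary. -/
def RateFlat (E : Type*) [NormedAddCommGroup E] [InnerProductSpace ℝ E] [FiniteDimensional ℝ E]
    [MeasurableSpace E] [BorelSpace E] (m Q : ℕ) : Prop :=
  ∀ A : ℝ, 0 < A → ∃ C ε : ℝ, 0 < C ∧ 0 < ε ∧ ∀ (T : Submodule ℝ E) (z : E) (R h : ℝ)
    (ν : Measure E) (P : E → E →L[ℝ] E) (φ : E → ℝ), IntCyl m Q T z (2 * R) h ε ν P →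
    exc T ν P z (2 * R) ≤ ε * R ^ m → BaseTest T z R φ →
    Ffl m Q T ν P φ ≤
      C * (Real.log (exc T ν P z (2 * R) / R ^ m)⁻¹) ^ (-A) * exc T ν P z (2 * R)

end Vale.Agent.P214.Skel
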