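import Vale.Agent.P214.DEN.F
import Vale.Agent.P214.MU.VTheta
import Vale.Agent.P214.CST.Main
import Vale.Agent.P214.Skel.Defs

/-!
# P214, skeleton: the top level

`UC` (unique continuation at good points) and `Const` (constancy) imply that the singular set is
`H^m`-null.
-/

open Set Filter Topology MeasureTheory Metric
open scoped RealInnerProductSpace ENNReal ContDiff

namespace Vale.Agent.P214.Skel

variable {E : Type*} [NormedAddCommGroup E] [InnerProductSpace ℝ E] [FiniteDimensional ℝ E]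
  [MeasurableSpace E] [BorelSpace E]

/-- what holds at `V.weight`-almost every point (block DEN) -/
structure GoodPt {m : ℕ} {U : Set E} (V : IntegralVarifold m U) (x : E) : Prop where
  spt : x ∈ V.spt
  carrier : x ∈ V.carrier
  mult : 1 ≤ V.mult x
  tan : IsApproxTangent m V.weight x (V.mult x) (V.tangent x)
  KQ : x ∈ DEN.KQ V (V.mult x)
  excess : ∀ ε > 0, ∀ᶠ r in 𝓝[>] (0:ℝ),
    ∫ y in ball x r, ‖proj (V.tangent y) - proj (V.tangent x)‖ ^ 2 ∂V.weight ≤ ε * r ^ m
  height : ∀ ε > 0, ∀ᶠ r in 𝓝[>] (0:ℝ), ∀ z ∈ V.spt ∩ closedBall x r,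
    ‖(z - x) - proj (V.tangent x) (z - x)‖ ≤ ε * r
  ratio : Tendsto (ratio m V.weight x) (𝓝[>] 0) (𝓝 (V.mult x * cg m))
  mass : Tendsto (fun r : ℝ => V.weight.real (closedBall x r) / r ^ m) (𝓝[>] 0)
    (𝓝 (V.mult x * DEN.om m))
  dens : ∀ ε > 0, ∀ᶠ r in 𝓝[>] (0:ℝ),
    μH[m] (DEN.disc (V.tangent x) r \ DEN.projKQ V (V.mult x) (V.tangent x) x r)
      ≤ ENNReal.ofReal (ε * r ^ m)

/-- **Unique continuation at good points** (blocks RATE, LOC, WIN, END): near a good point the
support lies in a smooth submanifold. -/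
def UC (E : Type*) [NormedAddCommGroup E] [InnerProductSpace ℝ E] [FiniteDimensional ℝ E]
    [MeasurableSpace E] [BorelSpace E] (m : ℕ) : Prop :=
  ∀ (U : Set E) (V : IntegralVarifold m U) (x : E), IsOpen U → V.IsStationary → GoodPt V x →
    ∃ W S : Set E, IsOpen W ∧ x ∈ W ∧ W ⊆ U ∧ IsSmoothSubmanifold m S ∧ V.spt ∩ W ⊆ S

/-- **Constancy** (block CON) -/
def Const (E : Type*) [NormedAddCommGroup E] [InnerProductSpace ℝ E] [FiniteDimensional ℝ E]
    [MeasurableSpace E] [BorelSpace E] (m : ℕ) : Prop :=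
  ∀ (U : Set E) (V : IntegralVarifold m U) (p : E) (W S : Set E), IsOpen U → V.IsStationary →
    p ∈ V.spt → IsOpen W → p ∈ W → W ⊆ U → IsSmoothSubmanifold m S → V.spt ∩ W ⊆ S →
    V.IsRegular p

/-- block CON, proved by helper617 -/
theorem const (m : ℕ) : Const E m := fun _ V _ _ _ hU hst hp hW hpW _ hS hsub =>
  CST.regular_of_spt_subset hU V hst hp (hW.mem_nhds hpW) hS hsub

/-- the top level: `UC` and `Const` imply the theorem -/
theorem top {m : ℕ} (hUC : UC E m) (hC : Const E m) {U : Set E} (hU : IsOpen U)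
    (V : IntegralVarifold m U) (hst : V.IsStationary) : μH[m] V.sing = 0 := by
  refine V.hausdorff_null_spt hU hst (fun p hp => hp.1) ?_
  have h := DEN.den hU V hst
  rw [ae_iff] at h
  refine measure_mono_null (fun p hp => ?_) h
  intro hg
  obtain ⟨h1, h2, h3, h4, h5, h6, h7, h8, h9, h10⟩ := hg
  obtain ⟨W, S, hW, hpW, hWU, hS, hsub⟩ := hUC U V p hU hst ⟨h1, h2, h3, h4, h5, h6, h7, h8, h9, h10⟩
  exact hp.2 (hC U V p W S hU hst h1 hW hpW hWU hS hsub)

/-- the top level: `UC` implies the theorem -/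
theorem main_of_UC {m : ℕ} (hUC : UC E m) {U : Set E} (hU : IsOpen U)
    (V : IntegralVarifold m U) (hst : V.IsStationary) : μH[m] V.sing = 0 :=
  top hUC (const m) hU V hst

end Vale.Agent.P214.Skel
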